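import Vale.Agent.P088.R2.H660.P.Data
import Vale.Agent.P088.R2.H644.N.PkG
import Vale.Agent.P088.R2.H230.W.CvF

/-!
# P088, stage 3, zone P: algebra for row P-W
-/

open Set Filter
open scoped ContDiff Topology

noncomputable section

namespace Vale.Agent.P088.R2.H167.P

open Vale.Agent.P088.R2.H961.GW Vale.Agent.P088.R2.H644 Vale.Agent.P088.R2.H230.W
open Vale.Agent.P088.R2.H644.Ch (TH GA Mc Gr Lx)
open Vale.Agent.P088.R2.H644.Sy (B0)
open Vale.Agent.P088.R2.H660.P (dl)

variable {E ι : Type*} [NormedAddCommGroup E] [NormedSpace ℝ E] [Fintype ι]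

section inv

variable [DecidableEq ι]

omit [Fintype ι] in
theorem dl_abs (i j : ι) : |dl i j| ≤ 1 := by
  unfold dl; split_ifs <;> simp

theorem sum_dl (i k : ι) (X : ι → ι → ℝ) : ∑ j, ∑ l, dl i j * dl k l * X j l = X i k := by
  have h : ∀ j, ∑ l, dl i j * dl k l * X j l = dl i j * X j k := by
    intro j
    simp [dl]
  simp only [h]
  simp [dl]

/-- Entries from the raised entries. -/
theorem inv_le {S T X : ι → ι → ℝ} {ε M : ℝ} (hS : ∀ i j, |S i j - dl i j| ≤ ε)
    (hT : ∀ i j, |T i j - dl i j| ≤ ε) (hε : 6 * (Fintype.card ι : ℝ) ^ 2 * ε ≤ 1)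
    (hM : ∀ i k, |∑ j, ∑ l, S i j * T k l * X j l| ≤ M) (j l : ι) : |X j l| ≤ 2 * M := by
  classical
  have hne : Nonempty ι := ⟨j⟩
  have hn : (1 : ℝ) ≤ Fintype.card ι := by
    exact_mod_cast Fintype.card_pos
  have hε0 : 0 ≤ ε := (abs_nonneg _).trans (hS j j)
  have hε1 : ε ≤ 1 := by nlinarith [sq_nonneg ((Fintype.card ι : ℝ) - 1)]
  obtain ⟨p, -, hp⟩ := Finset.exists_max_image (Finset.univ : Finset (ι × ι))
    (fun p => |X p.1 p.2|) ⟨(j, l), Finset.mem_univ _⟩
  obtain ⟨i, k⟩ := p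
  simp only at hp
  set m := |X i k| with hm
  have hm0 : 0 ≤ m := abs_nonneg _
  have hX : ∀ j l, |X j l| ≤ m := fun j l => hp (j, l) (Finset.mem_univ _)
  have e1 : X i k = ∑ j, ∑ l, S i j * T k l * X j l -
      ∑ j, ∑ l, (S i j * T k l - dl i j * dl k l) * X j l := by
    rw [← sum_dl i k X]
    simp only [sub_mul, Finset.sum_sub_distrib]
    ring
  have e2 : |∑ j, ∑ l, (S i j * T k l - dl i j * dl k l) * X j l| ≤
      (Fintype.card ι : ℝ) ^ 2 * (3 * ε * m) := by
    have h1 : ∀ j l, |(S i j * T k l - dl i j * dl k l) * X j l| ≤ 3 * ε * m := by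
      intro j l
      rw [abs_mul]
      refine mul_le_mul ?_ (hX j l) (abs_nonneg _) (by positivity)
      have e3 : S i j * T k l - dl i j * dl k l =
          (S i j - dl i j) * (T k l - dl k l) + (S i j - dl i j) * dl k l +
            dl i j * (T k l - dl k l) := by ring
      rw [e3]
      refine (abs_add_le _ _).trans ((add_le_add (abs_add_le _ _) le_rfl).trans ?_)
      rw [abs_mul, abs_mul, abs_mul]
      have a1 := hS i j
      have a2 := hT k l
      have a3 := dl_abs k l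
      have a4 := dl_abs i j
      have b1 : |S i j - dl i j| * |T k l - dl k l| ≤ ε * 1 :=
        mul_le_mul a1 (a2.trans hε1) (abs_nonneg _) hε0
      have b2 : |S i j - dl i j| * |dl k l| ≤ ε * 1 := mul_le_mul a1 a3 (abs_nonneg _) hε0
      have b3 : |dl i j| * |T k l - dl k l| ≤ 1 * ε :=
        mul_le_mul a4 a2 (abs_nonneg _) zero_le_one
      linarith
    refine (Finset.abs_sum_le_sum_abs _ _).trans ?_
    have h2 : ∀ j ∈ (Finset.univ : Finset ι),
        |∑ l, (S i j * T k l - dl i j * dl k l) * X j l| ≤ Fintype.card ι * (3 * ε * m) := by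
      intro j _
      refine (Finset.abs_sum_le_sum_abs _ _).trans ?_
      refine (Finset.sum_le_sum fun l _ => h1 j l).trans (le_of_eq ?_)
      rw [Finset.sum_const, Finset.card_univ, nsmul_eq_mul]
    refine (Finset.sum_le_sum h2).trans (le_of_eq ?_)
    rw [Finset.sum_const, Finset.card_univ, nsmul_eq_mul]
    ring
  have e3 : m ≤ M + (Fintype.card ι : ℝ) ^ 2 * (3 * ε * m) := by
    have := hM i k
    calc m = |∑ j, ∑ l, S i j * T k l * X j l -
          ∑ j, ∑ l, (S i j * T k l - dl i j * dl k l) * X j l| := by rw [← e1]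
      _ ≤ _ := (abs_sub _ _).trans (add_le_add this e2)
  have e4 : (Fintype.card ι : ℝ) ^ 2 * (3 * ε * m) ≤ 1 / 2 * m := by
    have h := mul_le_mul_of_nonneg_right hε hm0
    nlinarith
  linarith [hX j l]

end inv

section th

variable {σ τ : Sl E ι} {f : E → ℝ} {z : E}

theorem TH_pol (σ τ : Sl E ι) (f : E → ℝ) (z : E) (A B : ι → ℝ) :
    TH σ τ f z A B - TH σ τ f z A (-B) = 4 * ∑ i, ∑ k, Mc σ τ f i k z * A i * B k := by
  unfold TH
  have e1 : ∑ i, ∑ k, Mc σ τ f i k z * A i * (-B) k =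
      -∑ i, ∑ k, Mc σ τ f i k z * A i * B k := by
    rw [← Finset.sum_neg_distrib]
    refine Finset.sum_congr rfl fun i _ => ?_
    rw [← Finset.sum_neg_distrib]
    exact Finset.sum_congr rfl fun k _ => by simp
  have e2 : ∑ k, ∑ m, τ.Hc f k m z * (-B) k * (-B) m = ∑ k, ∑ m, τ.Hc f k m z * B k * B m :=
    Finset.sum_congr rfl fun k _ => Finset.sum_congr rfl fun m _ => by simp
  rw [e1, e2]
  ring

omit [NormedAddCommGroup E] [NormedSpace ℝ E] in
theorem sU_neg (σ : Sl E ι) (z : E) (A : ι → ℝ) : sU σ z (-A) = -sU σ z A := by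
  funext i
  unfold sU
  simp

variable [DecidableEq ι]

/-- The unit vector. -/
def e1 (i : ι) : ι → ℝ := Pi.single i 1

theorem Mc_sum (f : E → ℝ) (i k : ι) : ∑ a, ∑ b, Mc σ τ f a b z * e1 i a * e1 k b =
    Mc σ τ f i k z := by
  have h : ∀ a, ∑ b, Mc σ τ f a b z * e1 i a * e1 k b = Mc σ τ f a k z * e1 i a := by
    intro a
    simp [e1, Pi.single_apply]
  simp only [h]
  simp [e1, Pi.single_apply]

theorem nn_e1 (i : ι) : nn (e1 i : ι → ℝ) = 1 := by
  unfold nn dd e1
  simp [Pi.single_apply]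

theorem dd_e1 (i : ι) : dd (e1 i : ι → ℝ) (e1 i) = 1 := by
  unfold dd e1
  simp [Pi.single_apply]

omit [NormedAddCommGroup E] [NormedSpace ℝ E] in
theorem sU_e1 (σ : Sl E ι) (z : E) (i k : ι) : sU σ z (e1 k) i = σ.s i k z := by
  unfold sU e1
  simp [Pi.single_apply]

omit [NormedAddCommGroup E] [NormedSpace ℝ E] in
/-- The matrix of a slot is close to the identity. -/
theorem s_near {ε : ℝ} (h : ∀ A, nn (sU σ z A - A) ≤ ε * nn A) (i j : ι) :
    |σ.s i j z - dl i j| ≤ ε := by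
  have h1 := h (e1 j)
  rw [nn_e1, mul_one] at h1
  have h2 := abs_le_nn (sU σ z (e1 j) - e1 j) i
  have e : (sU σ z (e1 j) - e1 j) i = σ.s i j z - dl i j := by
    rw [Pi.sub_apply, sU_e1]
    congr 1
    unfold e1 dl
    rw [Pi.single_apply]
  rw [e] at h2
  exact h2.trans h1

end th

end Vale.Agent.P088.R2.H167.P
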