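import Vale.Agent.P088.R2.H167.P.PW
import Vale.Agent.P088.R2.H281.P.PBas
import Vale.Agent.P088.R2.H222.P.PSz
import Vale.Agent.P088.R2.H561.P.RowH2

/-!
# P088, stage 3, zone P: row P-W, unconditional
-/

namespace Vale.Agent.P088.R2.H167.P

/-- **Row P-W.** -/
theorem pW {n : ℕ} (hn : 1 ≤ n) : H660.P.RowPW n :=
  rowPW hn (H281.P.rowPBas n) (H222.P.rowPSz n) (H561.P.pH2 n)

end Vale.Agent.P088.R2.H167.P
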