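import Vale.Agent.P088.R2.H167.P.Pt
import Vale.Agent.P088.R2.H406.P.PW3
import Vale.Agent.P088.R2.H858.P.Crt
import Vale.Agent.P088.R2.H644.N.PkH
import Vale.Agent.P088.R2.H281.P.PGeo
import Vale.Agent.P088.R2.H973.W.DD

/-!
# P088, stage 3, zone P: row P-W
-/

open Set Filter
open scoped ContDiff Topology

noncomputable section

namespace Vale.Agent.P088.R2.H167.P

open Vale.Agent.P088.LR
open Vale.Agent.P088.HY hiding dd
open Vale.Agent.P088.R2.H961.GW Vale.Agent.P088.R2.H644 Vale.Agent.P088.R2.H960.W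
open Vale.Agent.P088.R2.H644.Ch (TH GA Mc Lx)
open Vale.Agent.P088.R2.H644.Sy (B0)
open Vale.Agent.P088.R2.H551.E
open Vale.Agent.P088.R2.H31.EP Vale.Agent.P088.R2.H230.W
open Vale.Agent.P088.R2.H747.A (rr lS lS₁ lS₂ D₂ ff GG NG ee hh OmB)
open Vale.Agent.P088.R2.H660.P
open Vale.Agent.P088.R2.H406.P (cfP AfP OmP_Ug GG_Gn Ug_rr)

variable {n : ℕ} {q : Cst} {d : Pk n} {b : Bool} {z : VV n}

/-- The properties of the two slots. -/
structure Sls (d : Pk n) (b : Bool) (U : Set (VV n)) : Prop where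
  ok : (sP d b).Ok U 1
  ot : (tP d b).Ok U 1
  h1 : ∀ z, (sP d b).ρ z = 1
  h1' : ∀ z, (tP d b).ρ z = 1
  hL : Lx (sP d b) U
  hL' : Lx (tP d b) U
  cm : Cm (sP d b) (tP d b) U

theorem sls (hd : PkOk q d) (b : Bool) {U : Set (VV n)} (hU : IsOpen U) : Sls d b U := by
  have a1 : d.sx.Ok U 1 := fx_ok hd.rg.sm₁ hd.rg.sy₁ hU
  have a2 : d.sy.Ok U 1 := fy_ok hd.rg.sm₂ hd.rg.sy₂ hU
  have c := H281.P.cm_pk hd hU
  cases b
  · exact ⟨a2, a1, fun _ => rfl, fun _ => rfl, H644.Ep.Lx_y d.s₂ U, H644.Ep.Lx_x d.s₁ U, c.symm⟩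
  · exact ⟨a1, a2, fun _ => rfl, fun _ => rfl, H644.Ep.Lx_x d.s₁ U, H644.Ep.Lx_y d.s₂ U, c⟩

theorem b0P (hd : PkOk q d) (b : Bool) {U : Set (VV n)} (hU : IsOpen U) {W : VV n → ℝ}
    (hW : Sm U W) (hz : z ∈ U) {C m k δ : ℝ} (B : B0 d.sx d.sy W z C m k δ) :
    B0 (sP d b) (tP d b) W z C m k δ := by
  cases b
  · have a1 : d.sx.Ok U 1 := fx_ok hd.rg.sm₁ hd.rg.sy₁ hU
    have a2 : d.sy.Ok U 1 := fy_ok hd.rg.sm₂ hd.rg.sy₂ hU
    exact B0_swap B a1 a2 (H281.P.cm_pk hd hU) hW hz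
  · exact B

theorem Cq_nonneg (n : ℕ) {C : ℝ} (hC : 0 ≤ C) : 0 ≤ Cq n C := by
  unfold Cq; positivity

/-- A larger constant. -/
theorem Wb_mono {E ι : Type*} [NormedAddCommGroup E] [NormedSpace ℝ E] [Fintype ι]
    [DecidableEq ι] {σ τ : Sl E ι} {v₁ v₂ W G : E → ℝ} {κ C₁ C C' : ℝ} {z : E}
    (h : Wb σ τ v₁ v₂ W G κ C₁ C z) (hC : C ≤ C') : Wb σ τ v₁ v₂ W G κ C₁ C' z := by
  have G0 : 0 ≤ G z := zero_le_one.trans h.G1
  have up : C * G z ≤ C' * G z := mul_le_mul_of_nonneg_right hC G0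
  refine ⟨h.G1, fun i => (h.w1 i).trans up, fun i => (h.w1' i).trans up, h.w2,
    fun i j => (h.w2' i j).trans up, fun i => (h.g1 i).trans up, fun i => (h.g1' i).trans up,
    h.lo, h.v1, h.v2, h.G2, fun A B x y => (h.qf A B x y).trans ?_⟩
  have a0 := nn_nonneg A
  have a1 := nn_nonneg B
  have x0 := abs_nonneg x
  have y0 := abs_nonneg y
  have s1 : 0 ≤ (|x| + |y|) * (nn A + nn B) := by positivity
  have s2 : 0 ≤ |x| * |y| + y ^ 2 := by positivity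
  have s3 : 0 ≤ x ^ 2 := sq_nonneg x
  have p1 := mul_le_mul_of_nonneg_right up s1
  have p2 := mul_le_mul_of_nonneg_right (mul_le_mul_of_nonneg_right hC (sq_nonneg (G z))) s2
  have p3 := mul_le_mul_of_nonneg_right up s3
  linarith

/-- The constant `C₁`. -/
def K1 (n : ℕ) : ℝ := 60 + 300 * (n : ℝ) ^ 4

theorem num_w2 {K b x κ G : ℝ} {i j : Fin n} {e h : Fin n → ℝ} (hh : dd h h = 1) (ee : dd e e = 1)
    (K0 : 0 < K) (b0 : 0 ≤ b) (b1 : b ≤ 53 / 100 * K)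
    (hx : |x - (K * (dl i j - h i * h j) + b * (e i * e j))| ≤ 1 / 100 * K)
    (hK : K ≤ 9 / 4 * κ * G) : |x| ≤ 6 * κ * G := by
  have n1 := nn_one hh
  have n2 := nn_one ee
  have q1 : |h i * h j| ≤ 1 * 1 :=
    ab_le ((abs_le_nn h i).trans n1.le) ((abs_le_nn h j).trans n1.le)
  have q2 : |e i * e j| ≤ 1 * 1 :=
    ab_le ((abs_le_nn e i).trans n2.le) ((abs_le_nn e j).trans n2.le)
  have q3 := dl_abs i j
  have q4 : |K * (dl i j - h i * h j)| ≤ K * 2 := by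
    rw [abs_mul, abs_of_pos K0]
    refine mul_le_mul_of_nonneg_left ?_ K0.le
    exact (abs_sub _ _).trans (by linarith)
  have q5 : |b * (e i * e j)| ≤ b * 1 := by
    rw [abs_mul, abs_of_nonneg b0]
    exact mul_le_mul_of_nonneg_left (by linarith) b0
  have q6 := abs_add_le (x - (K * (dl i j - h i * h j) + b * (e i * e j)))
    (K * (dl i j - h i * h j) + b * (e i * e j))
  rw [sub_add_cancel] at q6
  have q7 := abs_add_le (K * (dl i j - h i * h j)) (b * (e i * e j))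
  linarith

/-- **The fields at a point.** -/
theorem wb_pt {ε g κ C m δ c : ℝ} (hd : PkOk q d) (hop : IsOpen (OmB q d))
    (w : Wd (OmB q d) d.Φ (deriv d.Φ) (deriv (deriv d.Φ)) (lS q) (lS₁ q) (lS₂ q) (D₂ q)
        (d.u q) (rr d))
    (heq : Set.EqOn (d.W q) (wt d.Φ (lS q) (D₂ q) (d.u q) (rr d)) (OmB q d)) (hz : z ∈ OmB q d)
    (G : Geo (sP d b) (tP d b) (d.u q) (rr d) (fun l => ee d l z) (fun l => hP b l z) ε g z)
    (hε : ε ≤ 1 / 100) (hεn : 6 * (n : ℝ) ^ 2 * ε ≤ 1)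
    (G1 : 1 ≤ GG q d z) (N0 : 0 ≤ d.N q z) (N1 : d.N q z ≤ κ * GG q d z)
    (nw : nn (gr (sP d b) (d.W q) z) + 2 * d.N q z ≤ 2 * κ * GG q d z)
    (L1 : 97 / 100 ≤ lS₁ q (rr d z)) (L2 : lS₁ q (rr d z) ≤ 103 / 100)
    (L3 : |lS₂ q (rr d z)| ≤ κ) (K2 : KP q d z ≤ 9 / 4 * κ * GG q d z)
    (P0 : 0 ≤ deriv (deriv d.Φ) (d.u q z))
    (P1 : deriv (deriv d.Φ) (d.u q z) ≤ 3 * d.N q z) (k0 : 0 < κ) (k1 : κ ≤ 1 / 10)
    (r2 : rr d z < q.r₁ * Real.exp (-1))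
    (B : B0 (sP d b) (tP d b) (d.W q) z C m m δ) (hm : m ≤ 2 * GG q d z) (hδ : C * δ ≤ 1)
    (hu : ∀ i k, |(sP d b).D i ((tP d b).D k (d.u q)) z| ≤ c) (hc : 4 * (n : ℝ) ^ 2 * c ≤ κ)
    (hg : ∀ i, |(sP d b).D i (GG q d) z| ≤ C * GG q d z)
    (hg' : ∀ i, |(tP d b).D i (GG q d) z| ≤ C * GG q d z)
    (h2 : ∃ b', H2 (sP d b) (d.W q) (fun l => ee d l z) (fun l => hP b l z) (KP q d z) b'
      (1 / 100) z) :
    Wb (sP d b) (tP d b) 0 0 (d.W q) (GG q d) κ (K1 n) (2 * C + Cq n C) z ∧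
      ∀ i j, |(tP d b).D i ((sP d b).D j (d.W q)) z| ≤ K1 n * κ * GG q d z := by
  have S := sls hd b hop
  have okU := (sls hd b (isOpen_univ (X := VV n)))
  have hWs : Sm (OmB q d) (d.W q) := w.sm.congr heq
  have r0 := G.r0
  have G0 : 0 < GG q d z := by linarith
  have kG : 0 < κ * GG q d z := by positivity
  have hn0 : 0 ≤ (n : ℝ) ^ 4 := by positivity
  have C0 := B.C0
  have Cq0 : 0 ≤ Cq n C := Cq_nonneg n C0
  have e1 := H858.P.gr_W okU.ok hd hop w heq hz r0 r2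
  have e2 := H858.P.gr_W okU.ot hd hop w heq hz r0 r2
  have hT := H858.P.TH_W okU.ok okU.ot hd hop w heq hz r0 r2
  have hr : (rr d z)⁻¹ ≤ 3 * κ := by
    have h1 : GG q d z * (lS₁ q (rr d z) * (rr d z)⁻¹) ≤ GG q d z * (9 / 4 * κ) := by
      have : KP q d z = GG q d z * (lS₁ q (rr d z) * (rr d z)⁻¹) := by
        unfold KP; rw [div_eq_mul_inv]; ring
      rw [← this]; linarith
    have h2 := le_of_mul_le_mul_left h1 G0
    have h3 : 97 / 100 * (rr d z)⁻¹ ≤ lS₁ q (rr d z) * (rr d z)⁻¹ :=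
      mul_le_mul_of_nonneg_right L1 (inv_nonneg.2 r0.le)
    linarith
  -- the mixed derivatives
  have hs2 : ∀ i j, |(sP d b).s i j z| ≤ 2 := fun i j => by
    have h1 := s_near G.nx i j
    have h2 := dl_abs i j
    have h3 := abs_add_le ((sP d b).s i j z - dl i j) (dl i j)
    rw [sub_add_cancel] at h3
    linarith
  have ht2 : ∀ i j, |(tP d b).s i j z| ≤ 2 := fun i j => by
    have h1 := s_near G.ny i j
    have h2 := dl_abs i j
    have h3 := abs_add_le ((tP d b).s i j z - dl i j) (dl i j)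
    rw [sub_add_cancel] at h3
    linarith
  have hMu : ∀ i k, |Mc (sP d b) (tP d b) (d.u q) i k z| ≤ κ := by
    intro i k
    unfold Mc
    have t : ∀ j l, |(sP d b).s i j z * (tP d b).s k l z *
        (sP d b).D j ((tP d b).D l (d.u q)) z| ≤ 2 * 2 * c := fun j l =>
      ab_le (ab_le (hs2 i j) (ht2 k l)) (hu j l)
    refine (Finset.abs_sum_le_sum_abs _ _).trans ?_
    have t2 : ∀ j ∈ (Finset.univ : Finset (Fin n)), |∑ l, (sP d b).s i j z * (tP d b).s k l z *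
        (sP d b).D j ((tP d b).D l (d.u q)) z| ≤ n * (2 * 2 * c) := by
      intro j _
      refine (Finset.abs_sum_le_sum_abs _ _).trans ?_
      refine (Finset.sum_le_sum fun l _ => t j l).trans (le_of_eq ?_)
      rw [Finset.sum_const, Finset.card_univ, nsmul_eq_mul, Fintype.card_fin]
    refine (Finset.sum_le_sum t2).trans ?_
    rw [Finset.sum_const, Finset.card_univ, nsmul_eq_mul, Fintype.card_fin]
    calc (n : ℝ) * (n * (2 * 2 * c)) = 4 * (n : ℝ) ^ 2 * c := by ring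
      _ ≤ κ := hc
  have hMW := mix_W G (by linarith) G0 N0 N1 k0 (by linarith) L1 L2 L3 P0 P1 nw hr e1 hT hMu
  have hmix : ∀ i k, |(sP d b).D i ((tP d b).D k (d.W q)) z| ≤ 2 * (30 * κ * GG q d z) :=
    mix_D G (by rw [Fintype.card_fin]; exact hεn) hMW
  -- second derivatives in the critical slot
  obtain ⟨b', H⟩ := h2
  have hw2 : ∀ i j, |(sP d b).D i ((sP d b).D j (d.W q)) z| ≤ 6 * κ * GG q d z := fun i j =>
    num_w2 H.hh H.ee H.K0 H.b0 H.b1 (H.WW i j) K2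
  have hw1 : ∀ i, |(sP d b).D i (d.W q) z| ≤ 2 * κ * GG q d z := fun i => by
    have h1 : |gr (sP d b) (d.W q) z i| ≤ nn (gr (sP d b) (d.W q) z) := abs_le_nn _ i
    have h2 : gr (sP d b) (d.W q) z i = (sP d b).D i (d.W q) z := rfl
    rw [h2] at h1
    linarith
  have hK1 : K1 n * κ * GG q d z =
      60 * (κ * GG q d z) + 300 * ((n : ℝ) ^ 4 * (κ * GG q d z)) := by
    unfold K1; ring
  have hK0 : 0 ≤ (n : ℝ) ^ 4 * (κ * GG q d z) := by positivity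
  refine ⟨⟨G1, ?_, ?_, ?_, ?_, ?_, ?_, ?_, rfl, rfl, ?_, ?_⟩, ?_⟩
  · intro i
    refine (B.d1 i).trans ?_
    have h1 : C * m ≤ C * (2 * GG q d z) := mul_le_mul_of_nonneg_left hm C0
    have h2 : 0 ≤ Cq n C * GG q d z := by positivity
    linarith
  · intro i
    refine (B.d2 i).trans ?_
    have h1 : C * m ≤ C * (2 * GG q d z) := mul_le_mul_of_nonneg_left hm C0
    have h2 : 0 ≤ Cq n C * GG q d z := by positivity
    linarith
  · intro i j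
    refine (hw2 i j).trans ?_
    rw [hK1]
    linarith
  · intro i j
    refine (B.d22 i j).trans ?_
    have h1 : C * m ≤ C * (2 * GG q d z) := mul_le_mul_of_nonneg_left hm C0
    have h2 : 0 ≤ Cq n C * GG q d z := by positivity
    linarith
  · intro i
    refine (hg i).trans ?_
    have h1 : 0 ≤ C * GG q d z := by positivity
    have h2 : 0 ≤ Cq n C * GG q d z := by positivity
    linarith
  · intro i
    refine (hg' i).trans ?_
    have h1 : 0 ≤ C * GG q d z := by positivity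
    have h2 : 0 ≤ Cq n C * GG q d z := by positivity
    linarith
  · exact lo_W G hε G0 N0 N1 k1 L1 L2 nw e1 e2
  · have h1 := Ch.G2_bd' S.ok S.h1 S.hL hWs hz (S := 2) (δ₁ := 1) (δ₂ := 1)
      (w₁ := 2 * κ * GG q d z) (w₂ := 6 * κ * GG q d z) hs2
      (fun l i j => (B.ds1 l i j).trans hδ) (fun l k i j => (B.dds1 l k i j).trans hδ) hw1 hw2
    refine h1.trans ?_
    rw [Fintype.card_fin]
    have e3 : (n : ℝ) ^ 4 * (2 ^ 2 * (6 * κ * GG q d z) ^ 2 +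
        3 * (2 * 1 * (2 * κ * GG q d z) * (6 * κ * GG q d z)) +
        (3 / 2 * (2 * 1) + 1 / 2 * 1 ^ 2) * (2 * κ * GG q d z) ^ 2) =
        230 * (n : ℝ) ^ 4 * (κ * GG q d z) ^ 2 := by ring
    rw [e3]
    unfold K1
    have h4 : 0 ≤ (κ * GG q d z) ^ 2 := by positivity
    have h5 : 0 ≤ (n : ℝ) ^ 4 * (κ * GG q d z) ^ 2 := by positivity
    have e4 : (60 + 300 * (n : ℝ) ^ 4) * κ ^ 2 * GG q d z ^ 2 =
        60 * (κ * GG q d z) ^ 2 + 300 * ((n : ℝ) ^ 4 * (κ * GG q d z) ^ 2) := by ring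
    rw [e4]
    linarith
  · intro A A' x y
    have h1 := qf_P B S.ok S.ot S.h1 S.h1' S.hL S.hL' hWs hz G1 hm A A' x y
    rw [Fintype.card_fin] at h1
    refine h1.trans ?_
    have x0 := abs_nonneg x
    have y0 := abs_nonneg y
    have a0 := nn_nonneg A
    have a1 := nn_nonneg A'
    have p1 : 0 ≤ C * GG q d z * ((|x| + |y|) * (nn A + nn A')) := by positivity
    have p2 : 0 ≤ C * GG q d z ^ 2 * (|x| * |y| + y ^ 2) := by positivity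
    have p3 : 0 ≤ C * GG q d z * x ^ 2 := by positivity
    linarith
  · intro i j
    have h1 := hmix j i
    rw [S.cm.cc _ hWs z hz j i] at h1
    refine h1.trans ?_
    rw [hK1]
    linarith

theorem ev_big {f : Cst → ℝ} (hf : NB_M₀ f) : EvC fun q => f q ≤ q.R := by
  have h := EvC.at_R (fun q t => f q ≤ t) fun q => eventually_ge_atTop (f q)
  refine h.mono fun q hq => ?_
  have e : f q.b_R = f q := by
    rw [← hf q.b_R, ← hf q]; rfl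
  rwa [e] at hq

/-- Second slot derivatives against the full second derivative. -/
theorem DDx_le (d : Pk n) {f : VV n → ℝ} {U : Set (VV n)} (hU : IsOpen U) (hf : Sm U f)
    (hz : z ∈ U) (i k : Fin n) : |d.sx.D i (d.sy.D k f) z| ≤ ‖iteratedFDeriv ℝ 2 f z‖ := by
  have n1 : ‖((Pi.single i (1 : ℝ), 0) : VV n)‖ ≤ 1 := by
    rw [Prod.norm_mk, norm_zero, Pi.norm_single, norm_one]; norm_num
  have n2 : ‖((0, Pi.single k (1 : ℝ)) : VV n)‖ ≤ 1 := by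
    rw [Prod.norm_mk, norm_zero, Pi.norm_single, norm_one]; norm_num
  have e1 : d.sy.D k f = fun z => fderiv ℝ f z (0, Pi.single k 1) := by
    funext w
    simp [Sl.D, Pk.sy, sly]
  have e : d.sx.D i (d.sy.D k f) z =
      H973.W.DD [(Pi.single i (1 : ℝ), 0), (0, Pi.single k (1 : ℝ))] f z := by
    rw [e1]
    simp [Sl.D, Pk.sx, slx, H973.W.DD]
  rw [e]
  refine H973.W.DD_le hU hf (fun v hv => ?_) hz
  simp only [List.mem_cons, List.not_mem_nil, or_false] at hv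
  rcases hv with rfl | rfl
  · exact n1
  · exact n2

/-- The common constant. -/
theorem enlarge {C3 Ct κ C₁ : ℝ} (h3 : 1 ≤ C3) (ht : 0 ≤ Ct) (G0 : 0 ≤ GG q d z) (k0 : 0 < κ)
    (hK : κ * GG q d z ≤ KP q d z)
    (WB : Wb (sP d b) (tP d b) 0 0 (d.W q) (GG q d) κ C₁ Ct z)
    (WM : ∀ i j, |(tP d b).D i ((sP d b).D j (d.W q)) z| ≤ C₁ * κ * GG q d z)
    (x1 : ∀ i j k, |(sP d b).D i ((sP d b).D j ((sP d b).D k (d.W q))) z| ≤ C3 * GG q d z)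
    (x2 : ∀ i j, |(sP d b).D i ((sP d b).D j (GG q d)) z| ≤ C3 * GG q d z)
    (x3 : ∀ i, |(sP d b).D i (KP q d) z| ≤ C3 * KP q d z)
    (x4 : ∀ i j, |(sP d b).D i (hP b j) z| ≤ C3) :
    Wb (sP d b) (tP d b) 0 0 (d.W q) (GG q d) κ C₁ (C3 + Ct) z ∧
    (∀ i j, |(tP d b).D i ((sP d b).D j (d.W q)) z| ≤ C₁ * κ * GG q d z) ∧
    (∀ i j k, |(sP d b).D i ((sP d b).D j ((sP d b).D k (d.W q))) z| ≤ (C3 + Ct) * GG q d z) ∧
    (∀ i j, |(sP d b).D i ((sP d b).D j (GG q d)) z| ≤ (C3 + Ct) * GG q d z) ∧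
    (∀ i, |(sP d b).D i (KP q d) z| ≤ (C3 + Ct) * KP q d z) ∧
    (∀ i j, |(sP d b).D i (hP b j) z| ≤ C3 + Ct) := by
  have KP0 : 0 ≤ KP q d z := (mul_nonneg k0.le G0).trans hK
  exact ⟨Wb_mono WB (by linarith), WM,
    fun i j k => (x1 i j k).trans (mul_le_mul_of_nonneg_right (by linarith) G0),
    fun i j => (x2 i j).trans (mul_le_mul_of_nonneg_right (by linarith) G0),
    fun i => (x3 i).trans (mul_le_mul_of_nonneg_right (by linarith) KP0),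
    fun i j => (x4 i j).trans (by linarith)⟩

/-- The second derivatives of `u`. -/
theorem u_mix {Cd : ℝ} (hd : PkOk q d) (hop : IsOpen (OmB q d)) (hus : Sm (OmB q d) (d.u q))
    (zB : z ∈ OmB q d) (rr2 : 4 < d.r2 z) (D : H644.Pf.Dr Cd q d z) (b : Bool) (i k : Fin n) :
    |(sP d b).D i ((tP d b).D k (d.u q)) z| ≤ Cd * (q.R)⁻¹ := by
  have hun : ‖iteratedFDeriv ℝ 2 (d.u q) z‖ ≤ Cd * (q.R)⁻¹ := by
    have := D.u2 0 (by norm_num)
    rwa [H644.Pf.wu_far rr2] at this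
  cases b
  · have c := (H281.P.cm_pk hd hop).cc _ hus z zB k i
    show |d.sy.D i (d.sx.D k (d.u q)) z| ≤ _
    rw [← c]
    exact (DDx_le d hop hus zB k i).trans hun
  · exact (DDx_le d hop hus zB i k).trans hun

/-- The first derivatives of `G`. -/
theorem g_one {Cd C : ℝ} (hg : H644.Pf.Gc n q) (hd : PkOk q d) (hcf : 0 < cfP q)
    (hU : z ∈ H644.Pf.Ug (cfP q) (AfP q) q d) (D : H644.Pf.Dr Cd q d z) (hC : Cd ≤ C)
    (G0 : 0 ≤ GG q d z) (b : Bool) : (∀ i, |(sP d b).D i (GG q d) z| ≤ C * GG q d z) ∧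
      ∀ i, |(tP d b).D i (GG q d) z| ≤ C * GG q d z := by
  have hUo := H644.Pf.Ug_open (c := cfP q) (A := AfP q) hg hd
  have eG := GG_Gn hg hd hcf.le hU
  have eGG : ∀ z ∈ H644.Pf.Ug (cfP q) (AfP q) q d, GG q d z = H644.Pf.Gn q d z :=
    fun z hz => GG_Gn hg hd hcf.le hz
  have gn : ‖iteratedFDeriv ℝ 1 (H644.Pf.Gn q d) z‖ ≤ C * GG q d z := by
    have h5 := D.G 1 (by norm_num)
    rw [← eG] at h5
    exact h5.trans (mul_le_mul_of_nonneg_right hC G0)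
  have gx : ∀ i, |d.sx.D i (GG q d) z| ≤ C * GG q d z := fun i => by
    rw [D_congr d.sx hUo eGG i hU]
    exact (H644.Pf.Dx_le d i z).trans gn
  have gy : ∀ i, |d.sy.D i (GG q d) z| ≤ C * GG q d z := fun i => by
    rw [D_congr d.sy hUo eGG i hU]
    exact (H644.Pf.Dy_le d i z).trans gn
  cases b
  · exact ⟨gy, gx⟩
  · exact ⟨gx, gy⟩

theorem num_R {a Cb Cd κ R : ℝ} (ha : 0 ≤ a) (hb : 1 ≤ Cb) (hd : 1 ≤ Cd) (hκ : 0 < κ) (hR : 0 < R)
    (h : Cb + Cd + 4 * a * Cd / κ ≤ R) : 4 * a * (Cd * R⁻¹) ≤ κ ∧ (Cb + Cd) * R⁻¹ ≤ 1 := by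
  have q0 : 0 ≤ 4 * a * Cd / κ := by positivity
  constructor
  · have h5 : 4 * a * Cd / κ ≤ R := by linarith
    rw [div_le_iff₀ hκ] at h5
    rw [← mul_assoc, ← div_eq_mul_inv, div_le_iff₀ hR]
    linarith
  · rw [← div_eq_mul_inv, div_le_one hR]
    linarith

/-- **The row at a point.** -/
theorem row_at {ε g Cb Cd C3 : ℝ} (hg : H644.Pf.Gc n q) (hA : AfP q ≤ q.r₁ * Real.exp (-1))
    (hd : PkOk q d) (hop : IsOpen (OmB q d))
    (w : Wd (OmB q d) d.Φ (deriv d.Φ) (deriv (deriv d.Φ)) (lS q) (lS₁ q) (lS₂ q) (D₂ q)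
        (d.u q) (rr d))
    (heq : Set.EqOn (d.W q) (wt d.Φ (lS q) (D₂ q) (d.u q) (rr d)) (OmB q d))
    (hz : z ∈ OmP q d b)
    (G : Geo (sP d b) (tP d b) (d.u q) (rr d) (fun l => ee d l z) (fun l => hP b l z) ε g z)
    (hε : ε ≤ 1 / 100) (hεn : 6 * (n : ℝ) ^ 2 * ε ≤ 1)
    (G1 : 1 ≤ GG q d z) (N0 : 0 ≤ d.N q z) (N1 : d.N q z ≤ kP q * GG q d z)
    (nw : nn (gr (sP d b) (d.W q) z) + 2 * d.N q z ≤ 2 * kP q * GG q d z)
    (L1 : 97 / 100 ≤ lS₁ q (rr d z)) (L2 : lS₁ q (rr d z) ≤ 103 / 100)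
    (L3 : |lS₂ q (rr d z)| ≤ kP q) (hr : 100 ≤ rr d z)
    (K1' : kP q * GG q d z ≤ KP q d z) (K2 : KP q d z ≤ 9 / 4 * kP q * GG q d z)
    (P0 : 0 ≤ deriv (deriv d.Φ) (d.u q z))
    (P1 : deriv (deriv d.Φ) (d.u q z) ≤ 3 * d.N q z) (k0 : 0 < kP q) (k1 : kP q ≤ 1 / 10)
    (p1 : 2 * q.p₁ + 1 < q.r₁ * Real.exp (-1)) (p0 : 0 < q.p₁)
    (B : B0 d.sx d.sy (d.W q) z Cb (d.N q z + H644.Pf.Gn q d z) (d.N q z + H644.Pf.Gn q d z)
      (q.R)⁻¹)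
    (D : H644.Pf.Dr Cd q d z) (b1 : 1 ≤ Cb) (d1 : 1 ≤ Cd) (c1 : 1 ≤ C3)
    (hR : Cb + Cd + 4 * (n : ℝ) ^ 2 * Cd / kP q ≤ q.R)
    (h2 : ∃ b', H2 (sP d b) (d.W q) (fun l => ee d l z) (fun l => hP b l z) (KP q d z) b'
      (1 / 100) z)
    (x1 : ∀ i j k, |(sP d b).D i ((sP d b).D j ((sP d b).D k (d.W q))) z| ≤ C3 * GG q d z)
    (x2 : ∀ i j, |(sP d b).D i ((sP d b).D j (GG q d)) z| ≤ C3 * GG q d z)
    (x3 : ∀ i, |(sP d b).D i (KP q d) z| ≤ C3 * KP q d z)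
    (x4 : ∀ i j, |(sP d b).D i (hP b j) z| ≤ C3) :
    Wb (sP d b) (tP d b) 0 0 (d.W q) (GG q d) (kP q) (K1 n)
      (C3 + (2 * (Cb + Cd) + Cq n (Cb + Cd))) z ∧
    (∀ i j, |(tP d b).D i ((sP d b).D j (d.W q)) z| ≤ K1 n * kP q * GG q d z) ∧
    (∀ i j k, |(sP d b).D i ((sP d b).D j ((sP d b).D k (d.W q))) z| ≤
      (C3 + (2 * (Cb + Cd) + Cq n (Cb + Cd))) * GG q d z) ∧
    (∀ i j, |(sP d b).D i ((sP d b).D j (GG q d)) z| ≤
      (C3 + (2 * (Cb + Cd) + Cq n (Cb + Cd))) * GG q d z) ∧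
    (∀ i, |(sP d b).D i (KP q d) z| ≤
      (C3 + (2 * (Cb + Cd) + Cq n (Cb + Cd))) * KP q d z) ∧
    (∀ i j, |(sP d b).D i (hP b j) z| ≤ C3 + (2 * (Cb + Cd) + Cq n (Cb + Cd))) := by
  have hR0 : 0 < q.R := by linarith [hg.R1]
  have c0 : 0 < q.c₀ := hg.c0
  have hcf : 0 < cfP q := by unfold cfP; positivity
  have hU := OmP_Ug hR0 hA hz
  have eG := GG_Gn hg hd hcf.le hU
  have zB : z ∈ OmB q d := hz.1
  have Ri0 : 0 < (q.R)⁻¹ := inv_pos.2 hR0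
  have G0 : 0 ≤ GG q d z := by linarith
  have hWs : Sm (OmB q d) (d.W q) := w.sm.congr heq
  have sz : 0 ≤ d.N q z + H644.Pf.Gn q d z := by rw [← eG]; linarith
  have B' : B0 d.sx d.sy (d.W q) z (Cb + Cd) (d.N q z + H644.Pf.Gn q d z)
      (d.N q z + H644.Pf.Gn q d z) (q.R)⁻¹ :=
    B.le le_rfl (by linarith) (by linarith) (by linarith) sz sz Ri0.le
      (inv_le_one_of_one_le₀ hg.R1) (by linarith)
  have BP := b0P hd b hop hWs zB B'
  have r2 : rr d z < q.r₁ * Real.exp (-1) := by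
    have : rr d z < 2 * q.p₁ + 1 := (Real.sqrt_lt' (by linarith)).2 hz.2.2.1
    linarith
  have rr2 : 4 < d.r2 z := by
    have h5 := (Ug_rr hcf.le hU).2.2.1
    rw [← h5]
    have : (100 : ℝ) ^ 2 ≤ rr d z ^ 2 := pow_le_pow_left₀ (by norm_num) hr 2
    linarith
  have hus : Sm (OmB q d) (d.u q) := w.cu.su
  obtain ⟨hc, hδ⟩ := num_R (sq_nonneg (n : ℝ)) b1 d1 k0 hR0 hR
  have hgs := g_one hg hd hcf hU D (C := Cb + Cd) (by linarith) G0 b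
  have hm : d.N q z + H644.Pf.Gn q d z ≤ 2 * GG q d z := by
    rw [← eG]
    have : kP q * GG q d z ≤ 1 * GG q d z := mul_le_mul_of_nonneg_right (by linarith) G0
    linarith
  obtain ⟨WB, WM⟩ := wb_pt hd hop w heq zB G hε hεn G1 N0 N1 nw L1 L2 L3 K2 P0 P1 k0
    k1 r2 BP hm hδ (u_mix hd hop hus zB rr2 D b) hc hgs.1 hgs.2 h2
  have Ct0 : 0 ≤ 2 * (Cb + Cd) + Cq n (Cb + Cd) := by
    have := Cq_nonneg n (C := Cb + Cd) (by linarith)
    linarith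
  exact enlarge c1 Ct0 G0 k0 K1' WB WM x1 x2 x3 x4

/-- **Row P-W.** -/
theorem rowPW (hn : 1 ≤ n) (hB : RowPBas n) (hS : RowPSz n) (hH : RowPH2 n) : RowPW n := by
  obtain ⟨Cb, nCb, Cb1, hb⟩ := H644.Pf.b0_gen hn cfP AfP (fun q => rfl) (fun q => rfl)
  obtain ⟨Cd, nCd, Cd1, hdr⟩ := H644.Pf.dr_gen hn cfP AfP (fun q => rfl) (fun q => rfl)
  obtain ⟨C3, nC3, C31, h3⟩ := H406.P.pw3 hn hS
  have n1 : (1 : ℝ) ≤ n := by exact_mod_cast hn
  have p0 : (0 : ℝ) < 1 / (100 * (n : ℝ) ^ 2) := by positivity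
  have hSz := hS (fun _ => 1) (fun _ => 1 / 10) (fun _ => rfl) (fun _ => rfl)
    (fun _ => by norm_num)
  have hBs := hB (fun _ => 1) (fun _ => 1 / (100 * (n : ℝ) ^ 2)) (fun _ => rfl) (fun _ => rfl)
    (fun _ => one_pos) (fun _ => p0)
  have hHs := hH (1 / 100) (by norm_num)
  have evR := ev_big (f := fun q => Cb q + Cd q + 4 * (n : ℝ) ^ 2 * Cd q / kP q) fun q => by
    show Cb q.b_M₀ + Cd q.b_M₀ + 4 * (n : ℝ) ^ 2 * Cd q.b_M₀ / kP q.b_M₀ = _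
    rw [nCb q, nCd q]
    rfl
  have ev := (((H644.Pf.Gc.ev n).and (H644.Pf.ev_r1 (Af := AfP) fun q => rfl)).and
    ((H768.A.rowWd n).and H858.P.p_r₁)).and (((hSz.and hBs).and (hHs.and h3)).and evR)
  refine ⟨K1 n, ?_, fun q => C3 q + (2 * (Cb q + Cd q) + Cq n (Cb q + Cd q)), ?_, ?_, ?_⟩
  · unfold K1
    have : 0 ≤ (n : ℝ) ^ 4 := by positivity
    linarith
  · intro q
    show C3 q.b_M₀ + (2 * (Cb q.b_M₀ + Cd q.b_M₀) + Cq n (Cb q.b_M₀ + Cd q.b_M₀)) = _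
    rw [nC3 q, nCb q, nCd q]
  · intro q
    have a1 := C31 q
    have a2 := Cb1 q
    have a3 := Cd1 q
    have := Cq_nonneg n (C := Cb q + Cd q) (by linarith)
    show 1 ≤ C3 q + (2 * (Cb q + Cd q) + Cq n (Cb q + Cd q))
    linarith
  refine ev.mono fun q hq d hd b z hz => ?_
  obtain ⟨⟨⟨hg, hA⟩, hW, p0, p1⟩, ⟨⟨⟨k0, k1, hsz⟩, hbs⟩, hhs, h3⟩, hR⟩ := hq
  obtain ⟨hop, w, heq⟩ := hW d hd
  obtain ⟨s1, s2, s3, s4, s5, s6, s7, s8, s9, s10, s11, s12⟩ := hsz d hd b z hz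
  have k1 : kP q ≤ 1 / 10 := k1
  have s7 : |lS₂ q (rr d z)| ≤ 1 / 10 * kP q := s7
  obtain ⟨-, -, -, -, -, hbz⟩ := hbs d hd b
  obtain ⟨-, -, -, -, -, G⟩ := hbz z hz
  obtain ⟨h2, -⟩ := hhs d hd b z hz
  obtain ⟨x1, x2, x3, x4⟩ := h3 d hd b z hz
  have c0 : 0 < q.c₀ := hg.c0
  have hcf : 0 < cfP q := by unfold cfP; positivity
  have hAf : 0 < AfP q := by unfold AfP; positivity
  have hU := OmP_Ug (by linarith [hg.R1]) hA hz
  have B := hb q hg hcf hAf hA d hd z hU.1.1 hU.1.2 hU.2.1.1 hU.2.1.2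
  have D := hdr q hg hcf hAf hA d hd z hU.1.1 hU.1.2 hU.2.1.1 hU.2.1.2
  have n2 : (1 : ℝ) ≤ (n : ℝ) ^ 2 := one_le_pow₀ n1
  have ε1 : 1 / (100 * (n : ℝ) ^ 2) ≤ 1 / 100 := by
    rw [div_le_div_iff₀ (by positivity) (by norm_num)]
    linarith
  have ε2 : 6 * (n : ℝ) ^ 2 * (1 / (100 * (n : ℝ) ^ 2)) ≤ 1 := by
    rw [mul_one_div, div_le_one (by positivity)]
    linarith
  exact row_at hg hA hd hop w heq hz G ε1 ε2 s1 s2 s3 s4 s5 s6 (by linarith) s8 s9 s10 s11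
    (by linarith) k0 k1 p1 p0 B D (Cb1 q) (Cd1 q) (C31 q) hR h2 x1 x2 x3 x4

end Vale.Agent.P088.R2.H167.P
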