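import Vale.Agent.P088.R2.H167.P.Alg

/-!
# P088, stage 3, zone P: the pointwise estimates of row P-W
-/

open Set Filter
open scoped ContDiff Topology

noncomputable section

namespace Vale.Agent.P088.R2.H167.P

open Vale.Agent.P088.R2.H961.GW Vale.Agent.P088.R2.H644 Vale.Agent.P088.R2.H230.W
open Vale.Agent.P088.R2.H644.Ch (TH GA Mc Gr Lx)
open Vale.Agent.P088.R2.H644.Sy (B0)
open Vale.Agent.P088.R2.H660.P (dl)

variable {E ι : Type*} [NormedAddCommGroup E] [NormedSpace ℝ E] [Fintype ι]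

section mix

variable {σ τ : Sl E ι} {u r W : E → ℝ} {e h : ι → ℝ} {z : E} {ε g : ℝ}

omit [NormedAddCommGroup E] [NormedSpace ℝ E] in
theorem nn_up {σ : Sl E ι} (hx : ∀ A, nn (sU σ z A - A) ≤ ε * nn A) (hε : ε ≤ 1 / 10)
    {A : ι → ℝ} (hA : nn A = 1) : nn (sU σ z A) ≤ 11 / 10 := by
  have h1 := hx A
  have h2 := nn_le_add (sU σ z A) A
  rw [hA] at h1 h2
  linarith

theorem ab_le {a b x y : ℝ} (ha : |a| ≤ x) (hb : |b| ≤ y) : |a * b| ≤ x * y := by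
  rw [abs_mul]
  exact mul_le_mul ha hb (abs_nonneg _) ((abs_nonneg _).trans ha)

variable [DecidableEq ι]

/-- The mixed second derivatives of `r`. -/
theorem mix_r (G : Geo σ τ u r e h ε g z) (hε : ε ≤ 1 / 10) (i k : ι) :
    |Mc σ τ r i k z| ≤ 3 / r z := by
  have r0 := G.r0
  have ε0 := G.ε0
  have t1 := G.Tr (e1 i) (e1 k)
  have t2 := G.Tr (e1 i) (-(e1 k))
  have t3 := TH_pol σ τ r z (e1 i) (e1 k)
  rw [Mc_sum] at t3
  rw [sU_neg] at t2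
  have dn : dd (-(e1 k : ι → ℝ)) (-(e1 k)) = 1 := by
    have : dd (-(e1 k : ι → ℝ)) (-(e1 k)) = dd (e1 k : ι → ℝ) (e1 k) := by unfold dd; simp
    rw [this, dd_e1]
  rw [dd_e1, dd_e1] at t1
  rw [dd_e1, dn] at t2
  have nU := nn_up G.nx hε (nn_e1 i)
  have nV := nn_up G.ny hε (nn_e1 k)
  obtain ⟨U, hU⟩ : ∃ U, U = sU σ z (e1 i) := ⟨_, rfl⟩
  obtain ⟨V, hV⟩ : ∃ V, V = sU τ z (e1 k) := ⟨_, rfl⟩
  rw [← hU] at t1 t2 nU
  rw [← hV] at t1 t2 nV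
  have d1 : dd (U - V) (U - V) = dd U U + dd V V - 2 * dd U V := by
    simp only [dd_sub_left, dd_sub_right]
    rw [dd_comm V U]; ring
  have d2 : dd (U - -V) (U - -V) = dd U U + dd V V + 2 * dd U V := by
    rw [sub_neg_eq_add]
    simp only [dd_add_left, dd_add_right]
    rw [dd_comm V U]; ring
  have d3 : dd h (U - V) = dd h U - dd h V := dd_sub_right _ _ _
  have d4 : dd h (U - -V) = dd h U + dd h V := by rw [sub_neg_eq_add]; exact dd_add_right _ _ _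
  rw [d1, d3] at t1
  rw [d2, d4] at t2
  have hn := nn_one G.hh
  have b1 : |dd U V| ≤ 121 / 100 := by
    refine (dd_le_nn U V).trans ?_
    have := nn_nonneg U
    have := nn_nonneg V
    nlinarith
  have b2 : |dd h U * dd h V| ≤ 121 / 100 := by
    have x1 := dd_le_nn h U
    have x2 := dd_le_nn h V
    rw [hn, one_mul] at x1 x2
    have := ab_le (x1.trans nU) (x2.trans nV)
    linarith
  have i0 : 0 < (r z)⁻¹ := inv_pos.2 r0
  obtain ⟨q, hq⟩ : ∃ q, q = (r z)⁻¹ := ⟨_, rfl⟩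
  rw [div_eq_mul_inv, ← hq] at t1 t2
  rw [div_eq_mul_inv, ← hq]
  rw [← hq] at i0
  obtain ⟨s1, s2⟩ := abs_le.1 t1
  obtain ⟨s3, s4⟩ := abs_le.1 t2
  obtain ⟨c1, c2⟩ := abs_le.1 b1
  obtain ⟨c3, c4⟩ := abs_le.1 b2
  have m1 := mul_le_mul_of_nonneg_left c1 i0.le
  have m2 := mul_le_mul_of_nonneg_left c2 i0.le
  have m3 := mul_le_mul_of_nonneg_left c3 i0.le
  have m4 := mul_le_mul_of_nonneg_left c4 i0.le
  have m5 := mul_le_mul_of_nonneg_right hε i0.le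
  rw [abs_le]
  constructor <;> nlinarith

/-- **The mixed second derivatives of the weight.** -/
theorem mix_W (G : Geo σ τ u r e h ε g z) (hε : ε ≤ 1 / 10) {N Φ₂ G₀ L L₁ κ : ℝ} (G0 : 0 < G₀)
    (N0 : 0 ≤ N) (N1 : N ≤ κ * G₀) (k0 : 0 < κ) (k1 : κ ≤ 1) (L1 : 97 / 100 ≤ L)
    (L2 : L ≤ 103 / 100) (L3 : |L₁| ≤ κ) (P0 : 0 ≤ Φ₂) (P1 : Φ₂ ≤ 3 * N)
    (nw : nn (gr σ W z) + 2 * N ≤ 2 * κ * G₀) (hr : (r z)⁻¹ ≤ 3 * κ)
    (eσ : gr σ W z = (N + G₀) • gr σ u z + (G₀ * L) • gr σ r z)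
    (hT : ∀ A B, TH σ τ W z A B = N * TH σ τ u z A B + Φ₂ * GA σ τ u z A B ^ 2 +
      (G₀ * (TH σ τ u z A B + L * TH σ τ r z A B + L₁ * GA σ τ r z A B ^ 2)) +
      G₀ * (GA σ τ u z A B + L * GA σ τ r z A B) ^ 2)
    (hu : ∀ i k, |Mc σ τ u i k z| ≤ κ) (i k : ι) : |Mc σ τ W i k z| ≤ 30 * κ * G₀ := by
  have ε0 := G.ε0
  have kG : 0 < κ * G₀ := by positivity
  have t1 := TH_pol σ τ W z (e1 i) (e1 k)
  have t2 := TH_pol σ τ u z (e1 i) (e1 k)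
  have t3 := TH_pol σ τ r z (e1 i) (e1 k)
  rw [Mc_sum] at t1 t2 t3
  rw [hT, hT] at t1
  simp only [GA_dd G.sσ G.sτ, sU_neg] at t1
  have nU := nn_up G.nx hε (nn_e1 i)
  have nV := nn_up G.ny hε (nn_e1 k)
  have mr := mix_r G hε i k
  have mu := hu i k
  obtain ⟨U, hU⟩ : ∃ U, U = sU σ z (e1 i) := ⟨_, rfl⟩
  obtain ⟨V, hV⟩ : ∃ V, V = sU τ z (e1 k) := ⟨_, rfl⟩
  rw [← hU] at t1 nU
  rw [← hV] at t1 nV
  have ng : ∀ x : ι → ℝ, dd x (-V) = -dd x V := fun x => by unfold dd; simp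
  simp only [ng] at t1
  -- the gradients
  have nσu : nn (gr σ u z) ≤ 11 / 10 := by
    have h1 := nn_le_add (gr σ u z) e
    have := nn_one G.ee
    linarith [G.ux]
  have nτu : nn (gr τ u z) ≤ 11 / 10 := by
    have h1 := nn_le_add (gr τ u z) e
    have := nn_one G.ee
    linarith [G.uy]
  have nσr : nn (gr σ r z) ≤ 11 / 10 := by
    have h1 := nn_le_add (gr σ r z) h
    have := nn_one G.hh
    linarith [G.rx]
  have nτr : nn (gr τ r z) ≤ 11 / 10 := by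
    have h1 := nn_le_add (gr τ r z) (-h)
    rw [nn_neg, sub_neg_eq_add] at h1
    have := nn_one G.hh
    linarith [G.ry]
  have pr : ∀ {x y : ι → ℝ}, nn x ≤ 11 / 10 → nn y ≤ 11 / 10 → |dd x y| ≤ 121 / 100 := by
    intro x y hx hy
    refine (dd_le_nn x y).trans ?_
    have := nn_nonneg x
    have := nn_nonneg y
    nlinarith
  have au := pr nσu nU
  have bu := pr nτu nV
  have ar := pr nσr nU
  have br := pr nτr nV
  -- the combination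
  have cW : G₀ * (dd (gr σ u z) U + L * dd (gr σ r z) U) =
      dd (gr σ W z) U - N * dd (gr σ u z) U := by
    rw [eσ, dd_add_left, dd_smul_left, dd_smul_left]; ring
  have cb : |G₀ * (dd (gr σ u z) U + L * dd (gr σ r z) U)| ≤ 3 * (κ * G₀) := by
    rw [cW]
    have h1 := dd_le_nn (gr σ W z) U
    have h2 : nn (gr σ W z) * nn U ≤ nn (gr σ W z) * (11 / 10) :=
      mul_le_mul_of_nonneg_left nU (nn_nonneg _)
    have h3 : |N * dd (gr σ u z) U| ≤ N * (121 / 100) := by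
      rw [abs_mul, abs_of_nonneg N0]
      exact mul_le_mul_of_nonneg_left au N0
    refine (abs_sub _ _).trans ?_
    have h4 := nn_nonneg (gr σ W z)
    linarith
  obtain ⟨a₁, ha₁⟩ : ∃ a, a = dd (gr σ u z) U := ⟨_, rfl⟩
  obtain ⟨b₁, hb₁⟩ : ∃ a, a = dd (gr τ u z) V := ⟨_, rfl⟩
  obtain ⟨a₂, ha₂⟩ : ∃ a, a = dd (gr σ r z) U := ⟨_, rfl⟩
  obtain ⟨b₂, hb₂⟩ : ∃ a, a = dd (gr τ r z) V := ⟨_, rfl⟩
  rw [← ha₁, ← hb₁, ← ha₂, ← hb₂] at t1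
  rw [← ha₁] at au cb
  rw [← hb₁] at bu
  rw [← ha₂] at ar cb
  rw [← hb₂] at br
  have key : Mc σ τ W i k z = (N + G₀) * Mc σ τ u i k z + G₀ * L * Mc σ τ r i k z +
      Φ₂ * (a₁ * b₁) + G₀ * L₁ * (a₂ * b₂) + (G₀ * (a₁ + L * a₂)) * (b₁ + L * b₂) := by
    linear_combination (-1 / 4) * t1 + (N + G₀) / 4 * t2 + G₀ * L / 4 * t3
  have q1 : |(N + G₀) * Mc σ τ u i k z| ≤ 2 * (κ * G₀) := by
    have h0 : |N + G₀| ≤ 2 * G₀ := by
      rw [abs_of_nonneg (by linarith)]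
      have : κ * G₀ ≤ 1 * G₀ := mul_le_mul_of_nonneg_right k1 G0.le
      linarith
    refine (ab_le h0 mu).trans (le_of_eq (by ring))
  have q2 : |G₀ * L * Mc σ τ r i k z| ≤ 10 * (κ * G₀) := by
    have h0 : |G₀ * L| ≤ G₀ * (103 / 100) := by
      rw [abs_of_nonneg (by positivity)]
      exact mul_le_mul_of_nonneg_left L2 G0.le
    have h1 : |Mc σ τ r i k z| ≤ 9 * κ := by
      refine mr.trans ?_
      rw [div_eq_mul_inv]
      linarith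
    refine (ab_le h0 h1).trans ?_
    have e3 : G₀ * (103 / 100) * (9 * κ) = 927 / 100 * (κ * G₀) := by ring
    rw [e3]; linarith
  have q3 : |Φ₂ * (a₁ * b₁)| ≤ 5 * (κ * G₀) := by
    have h0 : |Φ₂| ≤ 3 * (κ * G₀) := by
      rw [abs_of_nonneg P0]; linarith
    refine (ab_le h0 (ab_le au bu)).trans ?_
    have e3 : 3 * (κ * G₀) * (121 / 100 * (121 / 100)) = 43923 / 10000 * (κ * G₀) := by ring
    rw [e3]; linarith
  have q4 : |G₀ * L₁ * (a₂ * b₂)| ≤ 2 * (κ * G₀) := by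
    have h0 : |G₀ * L₁| ≤ G₀ * κ := by
      rw [abs_mul, abs_of_pos G0]
      exact mul_le_mul_of_nonneg_left L3 G0.le
    refine (ab_le h0 (ab_le ar br)).trans ?_
    have e3 : G₀ * κ * (121 / 100 * (121 / 100)) = 14641 / 10000 * (κ * G₀) := by ring
    rw [e3]; linarith
  have q5 : |(G₀ * (a₁ + L * a₂)) * (b₁ + L * b₂)| ≤ 9 * (κ * G₀) := by
    have h0 : |b₁ + L * b₂| ≤ 3 := by
      have h1 : |L * b₂| ≤ 103 / 100 * (121 / 100) := by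
        refine ab_le ?_ br
        rw [abs_of_nonneg (by linarith)]
        exact L2
      refine (abs_add_le _ _).trans ?_
      linarith
    refine (ab_le cb h0).trans (le_of_eq (by ring))
  rw [key]
  refine (abs_add_le _ _).trans ?_
  have s1 := abs_add_le ((N + G₀) * Mc σ τ u i k z + G₀ * L * Mc σ τ r i k z +
      Φ₂ * (a₁ * b₁)) (G₀ * L₁ * (a₂ * b₂))
  have s2 := abs_add_le ((N + G₀) * Mc σ τ u i k z + G₀ * L * Mc σ τ r i k z) (Φ₂ * (a₁ * b₁))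
  have s3 := abs_add_le ((N + G₀) * Mc σ τ u i k z) (G₀ * L * Mc σ τ r i k z)
  linarith

/-- The entries. -/
theorem mix_D (G : Geo σ τ u r e h ε g z) (hε : 6 * (Fintype.card ι : ℝ) ^ 2 * ε ≤ 1) {M : ℝ}
    (hM : ∀ i k, |Mc σ τ W i k z| ≤ M) (i k : ι) : |σ.D i (τ.D k W) z| ≤ 2 * M :=
  inv_le (S := fun i j => σ.s i j z) (T := fun i j => τ.s i j z)
    (X := fun i k => σ.D i (τ.D k W) z) (s_near G.nx) (s_near G.ny) hε hM i k

omit [DecidableEq ι] in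
/-- **The gradient in the other slot.** -/
theorem lo_W (G : Geo σ τ u r e h ε g z) (hε : ε ≤ 1 / 100) {N G₀ L κ : ℝ} (G0 : 0 < G₀)
    (N0 : 0 ≤ N) (N1 : N ≤ κ * G₀) (k1 : κ ≤ 1 / 10) (L1 : 97 / 100 ≤ L) (L2 : L ≤ 103 / 100)
    (nw : nn (gr σ W z) + 2 * N ≤ 2 * κ * G₀)
    (eσ : gr σ W z = (N + G₀) • gr σ u z + (G₀ * L) • gr σ r z)
    (eτ : gr τ W z = (N + G₀) • gr τ u z + (G₀ * L) • gr τ r z) : G₀ ≤ nn (gr τ W z) := by
  have ε0 := G.ε0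
  have hL0 : 0 ≤ G₀ * L := by positivity
  have eX : (2 * (G₀ * L)) • h = (gr σ W z - gr τ W z) -
      ((N + G₀) • ((gr σ u z - e) - (gr τ u z - e)) +
        (G₀ * L) • ((gr σ r z - h) - (gr τ r z + h))) := by
    rw [eσ, eτ]
    funext i
    simp only [Pi.smul_apply, Pi.add_apply, Pi.sub_apply, smul_eq_mul]
    ring
  have n1 : nn ((2 * (G₀ * L)) • h) = 2 * (G₀ * L) := by
    rw [nn_smul, nn_one G.hh, abs_of_nonneg (by positivity), mul_one]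
  have n2 : nn ((N + G₀) • ((gr σ u z - e) - (gr τ u z - e))) ≤ (N + G₀) * (2 * ε) := by
    rw [nn_smul, abs_of_nonneg (by linarith)]
    refine mul_le_mul_of_nonneg_left ?_ (by linarith)
    refine (nn_sub_le _ _).trans ?_
    linarith [G.ux, G.uy]
  have n3 : nn ((G₀ * L) • ((gr σ r z - h) - (gr τ r z + h))) ≤ (G₀ * L) * (2 * ε) := by
    rw [nn_smul, abs_of_nonneg hL0]
    refine mul_le_mul_of_nonneg_left ?_ hL0
    refine (nn_sub_le _ _).trans ?_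
    linarith [G.rx, G.ry]
  have n4 := nn_sub_le (gr σ W z) (gr τ W z)
  have n5 := nn_add_le ((N + G₀) • ((gr σ u z - e) - (gr τ u z - e)))
    ((G₀ * L) • ((gr σ r z - h) - (gr τ r z + h)))
  have n6 := nn_sub_le (gr σ W z - gr τ W z) ((N + G₀) • ((gr σ u z - e) - (gr τ u z - e)) +
        (G₀ * L) • ((gr σ r z - h) - (gr τ r z + h)))
  rw [← eX, n1] at n6
  have m1 : κ * G₀ ≤ 1 / 10 * G₀ := mul_le_mul_of_nonneg_right k1 G0.le
  have m2 : (N + G₀) * (2 * ε) ≤ (N + G₀) * (2 / 100) :=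
    mul_le_mul_of_nonneg_left (by linarith) (by linarith)
  have m3 : (G₀ * L) * (2 * ε) ≤ (G₀ * L) * (2 / 100) :=
    mul_le_mul_of_nonneg_left (by linarith) hL0
  have m4 : G₀ * (97 / 100) ≤ G₀ * L := mul_le_mul_of_nonneg_left L1 G0.le
  linarith

end mix

section qf

variable {σ τ : Sl E ι} {U : Set E} {θ W : E → ℝ} {z : E} {C m k δ : ℝ}

/-- The bounds in the exchanged slots. -/
theorem B0_swap (b : B0 σ τ W z C m k δ) (ok : σ.Ok U θ) (ot : τ.Ok U θ) (c : Cm σ τ U)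
    (hW : Sm U W) (hz : z ∈ U) : B0 τ σ W z C m k δ where
  C0 := b.C0
  n0 := b.n0
  k0 := b.k0
  δ0 := b.δ0
  δ1 := b.δ1
  s1 := b.s2
  s2 := b.s1
  ds1 := b.ds2
  ds2 := b.ds1
  dds1 := b.dds2
  dds2 := b.dds1
  d1 := b.d2
  d2 := b.d1
  d11 := b.d22
  d12 i j := by rw [← c.cc W hW z hz j i]; exact b.d12 j i
  d22 := b.d11
  L1 := b.L2
  L2 := b.L1
  D11 := b.D22
  D12 := b.D21
  D21 := b.D12
  D22 := b.D11
  L11 := b.L22
  L12 := by rw [← L_L ok ot c hW hz]; exact b.L12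
  L22 := b.L11

/-- The constant of `qf_P`. -/
def Cq (a C : ℝ) : ℝ := 256 * (a ^ 4 * C ^ 4) + 16 * (a ^ 2 * C ^ 2) + 8 * C

theorem sum_abs_le (A : ι → ℝ) : ∑ i, |A i| ≤ Fintype.card ι * nn A := by
  refine (Finset.sum_le_sum fun i _ => abs_le_nn A i).trans (le_of_eq ?_)
  rw [Finset.sum_const, Finset.card_univ, nsmul_eq_mul]

/-- The arithmetic of `qf_P`. -/
theorem qf_num {a C m G X Y S T g₂ M g1 g2 g3 g4 l1 l2 l3 : ℝ} (ha : 0 ≤ a) (hC : 0 ≤ C)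
    (m0 : 0 ≤ m) (hG : 1 ≤ G) (hm : m ≤ 2 * G) (hS : 0 ≤ S) (hT : 0 ≤ T)
    (hg : |g₂| ≤ 8 * (a ^ 4 * C ^ 4) * m ^ 2) (hM : |M| ≤ a ^ 4 * C ^ 4 * m ^ 2)
    (h1 : |g1| ≤ a ^ 2 * C ^ 2 * m * S) (h2 : |g2| ≤ a ^ 2 * C ^ 2 * m * S)
    (h3 : |g3| ≤ a ^ 2 * C ^ 2 * m * T) (h4 : |g4| ≤ a ^ 2 * C ^ 2 * m * T)
    (k1 : |l1| ≤ C * m) (k2 : |l2| ≤ C * m) (k3 : |l3| ≤ C * m) :
    |-(8 * (2 * (M * (X * Y)) + g₂ * Y ^ 2)) - 8 * (X * g1 + Y * g2 + X * g3 + Y * g4) +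
      2 * (l1 * X ^ 2 + 2 * (l2 * (X * Y)) + l3 * Y ^ 2)| ≤
      Cq a C * G * ((|X| + |Y|) * (S + T)) + Cq a C * G ^ 2 * (|X| * |Y| + Y ^ 2) +
        Cq a C * G * X ^ 2 := by
  have G0 : 0 ≤ G := by linarith
  have p1 : 0 ≤ a ^ 4 * C ^ 4 := by positivity
  have p2 : 0 ≤ a ^ 2 * C ^ 2 := by positivity
  have hm2 : m ^ 2 ≤ 4 * G ^ 2 := by nlinarith
  have hG2 : G ≤ G ^ 2 := by nlinarith
  have x0 := abs_nonneg X
  have y0 := abs_nonneg Y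
  have xy0 : 0 ≤ |X| * |Y| := mul_nonneg x0 y0
  have hY2 : 0 ≤ Y ^ 2 := sq_nonneg _
  have hX2 : 0 ≤ X ^ 2 := sq_nonneg _
  -- the pieces
  have a1 : |M * (X * Y)| ≤ a ^ 4 * C ^ 4 * (4 * G ^ 2) * (|X| * |Y|) := by
    rw [abs_mul, abs_mul X Y]
    exact mul_le_mul_of_nonneg_right (hM.trans (mul_le_mul_of_nonneg_left hm2 p1)) xy0
  have a2 : |g₂ * Y ^ 2| ≤ 8 * (a ^ 4 * C ^ 4) * (4 * G ^ 2) * Y ^ 2 := by
    rw [abs_mul, abs_of_nonneg hY2]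
    exact mul_le_mul_of_nonneg_right (hg.trans (mul_le_mul_of_nonneg_left hm2 (by positivity))) hY2
  have a3 : ∀ {x t R : ℝ}, 0 ≤ R → |t| ≤ a ^ 2 * C ^ 2 * m * R →
      |x * t| ≤ 2 * (a ^ 2 * C ^ 2) * G * (|x| * R) := by
    intro x t R hR ht
    rw [abs_mul]
    have h1 : |x| * |t| ≤ |x| * (a ^ 2 * C ^ 2 * m * R) :=
      mul_le_mul_of_nonneg_left ht (abs_nonneg x)
    have h2 : a ^ 2 * C ^ 2 * (|x| * R) * m ≤ a ^ 2 * C ^ 2 * (|x| * R) * (2 * G) :=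
      mul_le_mul_of_nonneg_left hm (mul_nonneg p2 (mul_nonneg (abs_nonneg x) hR))
    linarith
  have b1 := a3 (x := X) hS h1
  have b2 := a3 (x := Y) hS h2
  have b3 := a3 (x := X) hT h3
  have b4 := a3 (x := Y) hT h4
  have cm : C * m ≤ C * (2 * G) := mul_le_mul_of_nonneg_left hm hC
  have c1 : |l1 * X ^ 2| ≤ C * (2 * G) * X ^ 2 := by
    rw [abs_mul, abs_of_nonneg hX2]
    exact mul_le_mul_of_nonneg_right (k1.trans cm) hX2
  have c2 : |l2 * (X * Y)| ≤ C * (2 * G) * (|X| * |Y|) := by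
    rw [abs_mul, abs_mul X Y]
    exact mul_le_mul_of_nonneg_right (k2.trans cm) xy0
  have c3 : |l3 * Y ^ 2| ≤ C * (2 * G) * Y ^ 2 := by
    rw [abs_mul, abs_of_nonneg hY2]
    exact mul_le_mul_of_nonneg_right (k3.trans cm) hY2
  have t : |-(8 * (2 * (M * (X * Y)) + g₂ * Y ^ 2)) - 8 * (X * g1 + Y * g2 + X * g3 + Y * g4) +
      2 * (l1 * X ^ 2 + 2 * (l2 * (X * Y)) + l3 * Y ^ 2)| ≤
      8 * (2 * |M * (X * Y)| + |g₂ * Y ^ 2|) + 8 * (|X * g1| + |Y * g2| + |X * g3| + |Y * g4|) +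
      2 * (|l1 * X ^ 2| + 2 * |l2 * (X * Y)| + |l3 * Y ^ 2|) := by
    rw [abs_le]
    have d1 := neg_abs_le (M * (X * Y)); have d1' := le_abs_self (M * (X * Y))
    have d2 := neg_abs_le (g₂ * Y ^ 2); have d2' := le_abs_self (g₂ * Y ^ 2)
    have d3 := neg_abs_le (X * g1); have d3' := le_abs_self (X * g1)
    have d4 := neg_abs_le (Y * g2); have d4' := le_abs_self (Y * g2)
    have d5 := neg_abs_le (X * g3); have d5' := le_abs_self (X * g3)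
    have d6 := neg_abs_le (Y * g4); have d6' := le_abs_self (Y * g4)
    have d7 := neg_abs_le (l1 * X ^ 2); have d7' := le_abs_self (l1 * X ^ 2)
    have d8 := neg_abs_le (l2 * (X * Y)); have d8' := le_abs_self (l2 * (X * Y))
    have d9 := neg_abs_le (l3 * Y ^ 2); have d9' := le_abs_self (l3 * Y ^ 2)
    constructor <;> linarith
  refine t.trans ?_
  have f1 : 0 ≤ C * (G ^ 2 - G) * (|X| * |Y|) :=
    mul_nonneg (mul_nonneg hC (by linarith)) xy0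
  have f2 : 0 ≤ C * (G ^ 2 - G) * Y ^ 2 := mul_nonneg (mul_nonneg hC (by linarith)) hY2
  have f3 : 0 ≤ (a ^ 4 * C ^ 4) * (G ^ 2 * (|X| * |Y|)) := by positivity
  have f5 : 0 ≤ (a ^ 4 * C ^ 4) * (G * ((|X| + |Y|) * (S + T))) := by positivity
  have f6 : 0 ≤ C * (G * ((|X| + |Y|) * (S + T))) := by positivity
  have f7 : 0 ≤ (a ^ 2 * C ^ 2) * (G ^ 2 * (|X| * |Y| + Y ^ 2)) := by positivity
  have f8 : 0 ≤ (a ^ 2 * C ^ 2) * (G * X ^ 2) := by positivity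
  have f9 : 0 ≤ (a ^ 4 * C ^ 4) * (G * X ^ 2) := by positivity
  have f11 : 0 ≤ C * (G ^ 2 * Y ^ 2) := by positivity
  have f12 : 0 ≤ C * (G * X ^ 2) := by positivity
  have idd : Cq a C * G * ((|X| + |Y|) * (S + T)) + Cq a C * G ^ 2 * (|X| * |Y| + Y ^ 2) +
      Cq a C * G * X ^ 2 =
      (8 * (2 * (a ^ 4 * C ^ 4 * (4 * G ^ 2) * (|X| * |Y|)) +
        8 * (a ^ 4 * C ^ 4) * (4 * G ^ 2) * Y ^ 2) +
      8 * (2 * (a ^ 2 * C ^ 2) * G * (|X| * S) + 2 * (a ^ 2 * C ^ 2) * G * (|Y| * S) +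
        2 * (a ^ 2 * C ^ 2) * G * (|X| * T) + 2 * (a ^ 2 * C ^ 2) * G * (|Y| * T)) +
      2 * (C * (2 * G) * X ^ 2 + 2 * (C * (2 * G) * (|X| * |Y|)) + C * (2 * G) * Y ^ 2)) +
      (256 * ((a ^ 4 * C ^ 4) * (G * ((|X| + |Y|) * (S + T)))) +
        8 * (C * (G * ((|X| + |Y|) * (S + T)))) +
        192 * ((a ^ 4 * C ^ 4) * (G ^ 2 * (|X| * |Y|))) + 8 * (C * (G ^ 2 - G) * (|X| * |Y|)) +
        16 * ((a ^ 2 * C ^ 2) * (G ^ 2 * (|X| * |Y| + Y ^ 2))) + 4 * (C * (G ^ 2 * Y ^ 2)) +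
        4 * (C * (G ^ 2 - G) * Y ^ 2) + 256 * ((a ^ 4 * C ^ 4) * (G * X ^ 2)) +
        16 * ((a ^ 2 * C ^ 2) * (G * X ^ 2)) + 4 * (C * (G * X ^ 2))) := by
    unfold Cq; ring
  rw [idd]
  linarith

/-- **The quantum part.** -/
theorem qf_P (b : B0 σ τ W z C m m δ) (ok : σ.Ok U θ) (ot : τ.Ok U θ) (h1 : ∀ z, σ.ρ z = 1)
    (h1' : ∀ z, τ.ρ z = 1) (hL : Lx σ U) (hL' : Lx τ U) (hW : Sm U W) (hz : z ∈ U) {G : ℝ}
    (hG : 1 ≤ G) (hm : m ≤ 2 * G) (A B : ι → ℝ) (x y : ℝ) :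
    |H747.SW.qf σ τ 0 0 W z A B x y + 8 * (Ch.G2 σ W z * x ^ 2)| ≤
      Cq (Fintype.card ι) C * G * ((|x| + |y|) * (nn A + nn B)) +
        Cq (Fintype.card ι) C * G ^ 2 * (|x| * |y| + y ^ 2) +
        Cq (Fintype.card ι) C * G * x ^ 2 := by
  set a : ℝ := (Fintype.card ι : ℝ) with ha
  have a0 : 0 ≤ a := by positivity
  have C0 := b.C0
  have m0 := b.n0
  have δ0 := b.δ0
  have gz : ∀ s : Sl E ι, s.Γ W (0 : E → ℝ) z = 0 := by
    intro s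
    unfold Sl.Γ
    refine Finset.sum_eq_zero fun i _ => Finset.sum_eq_zero fun j _ => ?_
    have : s.D j (0 : E → ℝ) z = 0 := D_const s 0 j z
    rw [this, mul_zero]
  have hg : |Ch.G2 τ W z| ≤ 8 * (a ^ 4 * C ^ 4) * m ^ 2 := by
    refine (b.G2 ot h1' hL' hW hz).trans ?_
    have h2 : δ * m ^ 2 ≤ 1 * m ^ 2 := mul_le_mul_of_nonneg_right b.δ1 (sq_nonneg _)
    have h3 : 4 * a ^ 4 * C ^ 4 * (m ^ 2 + δ * m ^ 2) ≤ 4 * a ^ 4 * C ^ 4 * (2 * m ^ 2) :=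
      mul_le_mul_of_nonneg_left (by linarith) (by positivity)
    refine h3.trans (le_of_eq (by ring))
  have hM : |M2 σ τ W W z| ≤ a ^ 4 * C ^ 4 * m ^ 2 := by
    refine b.M.trans (le_of_eq ?_)
    rw [← ha]; ring
  have gl : ∀ {s : Sl E ι} {f : E → ℝ}, (∀ i j, |s.s i j z| ≤ C) → (∀ i, |s.D i f z| ≤ C * m) →
      ∀ A : ι → ℝ, |H747.SW.gA s f z A| ≤ a ^ 2 * C ^ 2 * m * nn A := by
    intro s f hs hd A
    have h2 : |H747.SW.gA s f z A| ≤ a * (C * (C * m)) * ∑ i, |A i| :=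
      H644.Sy.gA_le (A := A) hs hd
    refine h2.trans ?_
    have h3 : a * (C * (C * m)) * ∑ i, |A i| ≤ a * (C * (C * m)) * (a * nn A) :=
      mul_le_mul_of_nonneg_left (sum_abs_le A) (by positivity)
    refine h3.trans (le_of_eq (by ring))
  have key := qf_num (X := x) (Y := y) a0 C0 m0 hG hm (nn_nonneg A) (nn_nonneg B) hg hM
    (gl b.s1 b.D11 A) (gl b.s1 b.D12 A) (gl b.s2 b.D21 B) (gl b.s2 b.D22 B) b.L11 b.L12 b.L22
  refine le_trans (le_of_eq ?_) key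
  congr 1
  unfold H747.SW.qf
  rw [gz, gz]
  ring

end qf

end Vale.Agent.P088.R2.H167.P
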